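import Vale.Agent.P297Z.Final
import Vale.Agent.P297Y.Alg.Top
import Vale.Agent.P297Y.En.Api
import Vale.Agent.P297Y.En.Wra
import Vale.Agent.P297Y.En.Wrc
import Vale.Agent.P297Y.En.Tors
import Vale.Agent.P297Y.En.Lem
import Vale.Agent.P297Y.En.Wr1
import Vale.Agent.P297Y.En.Wr2
import Vale.Agent.P297Y.En.Wr3
import Vale.Agent.P297Y.En.Wrn
import Vale.Agent.P297Y.En.G
import Vale.Agent.P297Y.En.Zr
import Vale.Agent.P297Y.En.Pen
import Vale.Agent.P297Y.En.Pen2
import Vale.Agent.P297Y.En.Fin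
import Vale.Agent.P297Y.En.Fin1
import Vale.Agent.P297Y.AJ.Core0
import Vale.Agent.P297Y.AJ.Fin
import Vale.Agent.P297Y.Tor.Fin

/-! P297: the conjecture of Bloch for all surfaces with `p_g = 0`. The assembly. -/

namespace Vale.Agent.P297Z.Sf

open Vale.Agent.P297Y.En in
theorem At.endg : ENDG :=
  En.endg_of En.api At.pend' At.ratb' (En.zr En.logh)
    (En.wrn En.red En.herm (En.wr1 wra) (En.wr2 wra (wrc wra) (En.wr1 wra)) En.wr3) En.g2
    En.g1a En.g1b En.pen1 En.pen2 (En.fin2 tors) En.fin1a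
    (En.fin1b (lema tors) (lemb tors fibc)) (En.finc gen0 fibc)

theorem At.star : STAR := At.star_of_endg At.endg

end Vale.Agent.P297Z.Sf

namespace Vale.Agent.P297Y

open Vale.Agent.P297Z

theorem core0 : AJ.CORE0 := fun K _ _ S h hp hq => by
  obtain ⟨φ⟩ := Sf.albf K S h hp hq
  obtain ⟨π, hπ⟩ := Sf.mor' K S h φ
  exact ⟨φ.k, φ.cff, π, hπ, Sf.At.star K S hp φ π hπ⟩

theorem core : AJ.CORE :=
  AJ.core_of (Sf.stage2 Sf.mod Sf.shape Sf.van_loci Sf.ev Sf.kill Sf.tau Sf.Sl.pts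
    fun _ _ _ S => S.rul) core0

theorem blochFull : BlochFull := AJ.blochFull_of_core core

theorem blochTor : Tor.BlochTor := Tor.blochTor_of_core core

end Vale.Agent.P297Y
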